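import Vale.Agent.H30.NS.Main

/-!
P113: halting detection by particle trajectories of forced Navier-Stokes flows from rest.
The definitions used in the statement are in `Vale/Agent/H30/NS/Defs.lean`.
-/

namespace Vale.Agent.Results.P113.A_HaltingDetection

open Vale.Agent.H30

theorem result :
    ∀ ν : ℝ, 0 < ν →
      (∃ φ : ℕ → ℕ × ℕ × ℕ, Computable φ ∧ ∀ k : ℕ, |ν - qv (φ k)| ≤ 1 / ((k : ℝ) + 1)) →
    ∃ (a : Fin 3 → UnitAddCircle) (O : Set (Fin 3 → UnitAddCircle))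
      (comp : (ℕ × List ℕ × List ((ℕ × ℕ) × ℕ × ℕ × Option Bool)) → List ℕ → Nat.Partrec.Code)
      (F : (ℕ × List ℕ × List ((ℕ × ℕ) × ℕ × ℕ × Option Bool)) → List ℕ → ℝ → R3 → R3)
      (T₀ P : ℝ),
      IsOpen O ∧ Computable₂ comp ∧ 0 < P ∧
      (∀ M w w' t x, T₀ ≤ t → F M w (t + P) x = F M w t x ∧ F M w' t x = F M w t x) ∧
      ∀ M w, (∀ n : ℕ, ContDiff ℝ n (fun z : ℝ × R3 => F M w z.1 z.2)) ∧
        (∀ t : ℝ, Per3 (F M w t)) ∧ IsProgramFor (comp M w) (F M w) ∧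
        Detects ν (F M w) a O (∃ n : ℕ, ((tmStep M)^[n] (M.1, [], w)).1 ∈ M.2.1) :=
  main_theorem

end Vale.Agent.Results.P113.A_HaltingDetection
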