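import Vale.Agent.H30.NS2.Main

/-!
P113, stronger form: halting detection by particle trajectories of forced Navier-Stokes flows from
rest, where the force does not depend on the machine up to time `T₀` and is time-periodic and
independent of the input from time `T₀` on; the point, the open set, `T₀` and the period do not
depend on the viscosity. The definitions used in the statement are in
`Vale/Agent/H30/NS/Defs.lean`.
-/

namespace Vale.Agent.Results.P113.B_InputThenMachine

open Vale.Agent.H30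

theorem result :
    ∃ (a : Fin 3 → UnitAddCircle) (O : Set (Fin 3 → UnitAddCircle)) (T₀ P : ℝ),
      IsOpen O ∧ 0 < T₀ ∧ 0 < P ∧
      ∀ ν : ℝ, 0 < ν →
        (∃ φ : ℕ → ℕ × ℕ × ℕ, Computable φ ∧ ∀ k : ℕ, |ν - qv (φ k)| ≤ 1 / ((k : ℝ) + 1)) →
        ∃ (comp : (ℕ × List ℕ × List ((ℕ × ℕ) × ℕ × ℕ × Option Bool)) → List ℕ →
            Nat.Partrec.Code)
          (F : (ℕ × List ℕ × List ((ℕ × ℕ) × ℕ × ℕ × Option Bool)) → List ℕ → ℝ → R3 → R3),
          Computable₂ comp ∧
          (∀ M w w' t x, T₀ ≤ t → F M w (t + P) x = F M w t x ∧ F M w' t x = F M w t x) ∧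
          (∀ M M' w t x, t ≤ T₀ → F M' w t x = F M w t x) ∧
          ∀ M w, (∀ n : ℕ, ContDiff ℝ n (fun z : ℝ × R3 => F M w z.1 z.2)) ∧
            (∀ t : ℝ, Per3 (F M w t)) ∧ IsProgramFor (comp M w) (F M w) ∧
            Detects ν (F M w) a O (∃ n : ℕ, ((tmStep M)^[n] (M.1, [], w)).1 ∈ M.2.1) :=
  V2.main_theorem

end Vale.Agent.Results.P113.B_InputThenMachine
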