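import Vale.Agent.H30.NS3.Main

/-!
P113, stable form: halting detection by particle trajectories of forced Navier-Stokes flows from
rest with a margin. As in `B_InputThenMachine`, the force does not depend on the machine up to
time `T₀` and is time-periodic and independent of the input from time `T₀` on, and the point, the
open set, `T₀` and the period do not depend on the viscosity. In addition there is a margin
`δ > 0`: if the machine does not halt, the trajectory stays at distance at least `δ` from the open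
set at all times. The definitions used in the statement are in `Vale/Agent/H30/NS/Defs.lean` and
`Vale/Agent/H30/NS3/Defs.lean`.
-/

namespace Vale.Agent.Results.P113.C_StableDetection

open Vale.Agent.H30

theorem result :
    ∃ (a : Fin 3 → UnitAddCircle) (O : Set (Fin 3 → UnitAddCircle)) (T₀ P δ : ℝ),
      IsOpen O ∧ 0 < T₀ ∧ 0 < P ∧ 0 < δ ∧
      ∀ ν : ℝ, 0 < ν →
        (∃ φ : ℕ → ℕ × ℕ × ℕ, Computable φ ∧ ∀ k : ℕ, |ν - qv (φ k)| ≤ 1 / ((k : ℝ) + 1)) →
        ∃ (comp : (ℕ × List ℕ × List ((ℕ × ℕ) × ℕ × ℕ × Option Bool)) → List ℕ →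
            Nat.Partrec.Code)
          (F : (ℕ × List ℕ × List ((ℕ × ℕ) × ℕ × ℕ × Option Bool)) → List ℕ → ℝ → R3 → R3),
          Computable₂ comp ∧
          (∀ M w w' t x, T₀ ≤ t → F M w (t + P) x = F M w t x ∧ F M w' t x = F M w t x) ∧
          (∀ M M' w t x, t ≤ T₀ → F M' w t x = F M w t x) ∧
          ∀ M w, (∀ n : ℕ, ContDiff ℝ n (fun z : ℝ × R3 => F M w z.1 z.2)) ∧
            (∀ t : ℝ, Per3 (F M w t)) ∧ IsProgramFor (comp M w) (F M w) ∧
            DetectsStably ν (F M w) a O δ
              (∃ n : ℕ, ((tmStep M)^[n] (M.1, [], w)).1 ∈ M.2.1) := by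
  obtain ⟨a, O, T₀, P, δ, h1, h2, h3, h4, h⟩ := V3.main_theorem
  refine ⟨a, O, T₀, P, δ, h1, h2, h3, h4, fun ν hν hc => ?_⟩
  obtain ⟨comp, F, k1, k2, k3, k⟩ := h ν hν hc
  exact ⟨comp, F, k1, k2, k3, fun M w => ⟨(k M w).1, (k M w).2.1, (k M w).2.2.1, (k M w).2.2.2.2⟩⟩

end Vale.Agent.Results.P113.C_StableDetection
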