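import Vale.Agent.H30.NS3.Explicit

/-!
P113, stable form with explicit data: halting detection by particle trajectories of forced
Navier-Stokes flows from rest, with the point `0` of the torus, `T₀ = 1`, period `1` and margin
`1 / 4`. The force does not depend on the machine up to time `1` and is `1`-periodic in time and
independent of the input from time `1` on. Both detection clauses are stated for the same data:
`Detects` (the trajectory lies in `O` at some time `t ≥ 0` if and only if the machine halts) and
`DetectsStably` (if the machine does not halt, the trajectory stays at distance at least `1 / 4`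
from `O` at all times). The definitions used in the statement are in
`Vale/Agent/H30/NS/Defs.lean` and `Vale/Agent/H30/NS3/Defs.lean`.
-/

namespace Vale.Agent.Results.P113.D_ExplicitStable

open Vale.Agent.H30

theorem result :
    ∃ O : Set (Fin 3 → UnitAddCircle), IsOpen O ∧
      ∀ ν : ℝ, 0 < ν →
        (∃ φ : ℕ → ℕ × ℕ × ℕ, Computable φ ∧ ∀ k : ℕ, |ν - qv (φ k)| ≤ 1 / ((k : ℝ) + 1)) →
        ∃ (comp : (ℕ × List ℕ × List ((ℕ × ℕ) × ℕ × ℕ × Option Bool)) → List ℕ →
            Nat.Partrec.Code)
          (F : (ℕ × List ℕ × List ((ℕ × ℕ) × ℕ × ℕ × Option Bool)) → List ℕ → ℝ → R3 → R3),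
          Computable₂ comp ∧
          (∀ M w w' t x, (1 : ℝ) ≤ t →
            F M w (t + 1) x = F M w t x ∧ F M w' t x = F M w t x) ∧
          (∀ M M' w t x, t ≤ (1 : ℝ) → F M' w t x = F M w t x) ∧
          ∀ M w, (∀ n : ℕ, ContDiff ℝ n (fun z : ℝ × R3 => F M w z.1 z.2)) ∧
            (∀ t : ℝ, Per3 (F M w t)) ∧ IsProgramFor (comp M w) (F M w) ∧
            Detects ν (F M w) 0 O (∃ n : ℕ, ((tmStep M)^[n] (M.1, [], w)).1 ∈ M.2.1) ∧
            DetectsStably ν (F M w) 0 O (1 / 4)
              (∃ n : ℕ, ((tmStep M)^[n] (M.1, [], w)).1 ∈ M.2.1) :=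
  ⟨V3.Oset, V3.Oset_open, fun ν hν hc => V3.explicit_theorem ν hν hc⟩

end Vale.Agent.Results.P113.D_ExplicitStable
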